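import Vale.Agent.P181.TS.Spec
import Vale.Agent.P181.H261.MatG

/-!
# P181, TS [MAT]: the orbit inequality from minors over `ℂ[t]`
-/

set_option autoImplicit false

namespace Vale.Agent.P181.TS.H352

open Finset
open Vale.Agent.P181 Vale.Agent.P181.H280 Vale.Agent.P181.FR Vale.Agent.P181.H188W
open Vale.Agent.P181.T4 Vale.Agent.P181.H463 Vale.Agent.P181.H59 Vale.Agent.P181.H261
open Vale.Agent.P181.H261.Mat5

/-! ### Polynomials -/

lemma coeff_prod {κ : Type} (s : Finset κ) (f : κ → Polynomial ℂ) (a : κ → ℕ)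
    (h : ∀ c ∈ s, Polynomial.X ^ a c ∣ f c) :
    (∏ c ∈ s, f c).coeff (∑ c ∈ s, a c) = ∏ c ∈ s, (f c).coeff (a c) := by
  classical
  induction s using Finset.induction_on with
  | empty => simp
  | insert c s hc ih =>
    rw [prod_insert hc, sum_insert hc, prod_insert hc, ← ih fun d hd => h d (mem_insert_of_mem hd)]
    obtain ⟨q, hq⟩ := h c (mem_insert_self c s)
    have h1 : (Polynomial.X : Polynomial ℂ) ^ (∑ d ∈ s, a d) ∣ ∏ d ∈ s, f d := by
      rw [← prod_pow_eq_pow_sum]
      exact prod_dvd_prod_of_dvd _ _ fun d hd => h d (mem_insert_of_mem hd)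
    obtain ⟨q', hq'⟩ := h1
    rw [hq, hq']
    have e1 : Polynomial.X ^ a c * q * (Polynomial.X ^ (∑ d ∈ s, a d) * q') =
        Polynomial.X ^ (a c + ∑ d ∈ s, a d) * (q * q') := by
      rw [pow_add]
      ring
    have e2 : ∀ (n : ℕ) (p : Polynomial ℂ), (Polynomial.X ^ n * p).coeff n = p.coeff 0 := by
      intro n p
      have := Polynomial.coeff_X_pow_mul p n 0
      rwa [zero_add] at this
    rw [e1, e2, e2, e2, Polynomial.mul_coeff_zero]

theorem det_ne {κ : Type} [Fintype κ] [DecidableEq κ] (P : Matrix κ κ (Polynomial ℂ)) (ω : κ → ℕ)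
    (hd : ∀ τ, Polynomial.X ^ ω τ ∣ P τ τ) (hd0 : ∀ τ, (P τ τ).coeff (ω τ) ≠ 0)
    (ho : ∀ τ σ, σ ≠ τ → Polynomial.X ^ (ω τ + 1) ∣ P τ σ) : P.det ≠ 0 := by
  have h1 : ∀ τ σ, ∃ q, P τ σ = Polynomial.X ^ ω τ * q := by
    intro τ σ
    by_cases h : σ = τ
    · subst h
      exact hd σ
    · exact (dvd_trans (pow_dvd_pow _ (Nat.le_succ _)) (ho τ σ h))
  choose Q hQ using h1
  have e2 : ∀ (n : ℕ) (p : Polynomial ℂ), (Polynomial.X ^ n * p).coeff n = p.coeff 0 := by
    intro n p
    have := Polynomial.coeff_X_pow_mul p n 0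
    rwa [zero_add] at this
  have h2 : P = Matrix.of fun τ σ => Polynomial.X ^ ω τ * Q τ σ := by
    ext1 τ σ
    exact hQ τ σ
  have h3 : P.det = (∏ τ, Polynomial.X ^ ω τ) * (Matrix.of Q).det := by
    rw [h2]
    exact Matrix.det_mul_column _ _
  have h4 : (Polynomial.evalRingHom (0 : ℂ)) (Matrix.of Q).det ≠ 0 := by
    rw [RingHom.map_det]
    have h5 : (Polynomial.evalRingHom (0 : ℂ)).mapMatrix (Matrix.of Q) =
        Matrix.diagonal fun τ => (P τ τ).coeff (ω τ) := by
      ext τ σ
      rw [RingHom.mapMatrix_apply, Matrix.map_apply, Matrix.of_apply, Polynomial.coe_evalRingHom,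
        ← Polynomial.coeff_zero_eq_eval_zero]
      by_cases h : σ = τ
      · subst h
        rw [Matrix.diagonal_apply_eq, hQ, e2]
      · rw [Matrix.diagonal_apply_ne _ (Ne.symm h)]
        have h6 := Polynomial.X_pow_dvd_iff.1 (ho τ σ h) (ω τ) (Nat.lt_succ_self _)
        rwa [hQ, e2] at h6
    rw [h5, Matrix.det_diagonal]
    exact prod_ne_zero_iff.2 fun τ _ => hd0 τ
  rw [h3]
  refine mul_ne_zero (prod_ne_zero_iff.2 fun τ _ => pow_ne_zero _ Polynomial.X_ne_zero) ?_
  intro h
  rw [h, map_zero] at h4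
  exact h4 rfl

lemma exists_eval_ne {P : Polynomial ℂ} (h : P ≠ 0) : ∃ t, Polynomial.eval t P ≠ 0 := by
  by_contra hc
  push Not at hc
  exact h (Polynomial.funext fun t => by rw [hc t, Polynomial.eval_zero])

/-! ### The orbit inequality with a general determinant -/

theorem orbit_gtD {n k b : ℕ} {lam η : Fin n → ℕ} (hη : Antitone η) {M : Type} [Fintype M]
    (lenM : M → ℕ) (hlenM : ∀ c, lenM c ≤ n)
    (hlam : ∀ i : Fin n, (Finset.univ.filter fun c => (i : ℕ) < lenM c).card + η i = lam i)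
    (d : Fin b → ℕ) (hbal : ∀ i j, d i ≤ d j + 1) (hs : ∑ q, d q = ∑ i, η i)
    (K : Equiv.Perm (Fin b) → (c : M) → Fin (lenM c) → Fin b)
    (hdeg : ∀ τ j, ∑ c, (Finset.univ.filter fun i => K τ c i = j).card + d j = k)
    (p : Fin b → Fin n → ℂ)
    (hdet : (Matrix.of fun τ σ : Equiv.Perm (Fin b) =>
      ∏ c, dt (hlenM c) (fun s => σ (K τ c s)) p).det ≠ 0) :
    gt n b η ≤ ((∑ i, η i) + b - 1).choose (b - 1) * (b.factorial * plethMult b k n lam) := by
  classical
  refine gt_le_of_family η hη d hbal hs ?_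
  intro C ι _ _ len hlen hcol J hJ hli
  refine orbit_prod lenM hlenM len hlen ?_ K J ?_ p hdet hli
  · intro i
    rw [hcol i, hlam i]
  · intro τ β j
    rw [← hdeg τ j, ← hJ β j]

lemma pt_castLE {b R : ℕ} (r : ℕ) (cl : Fin b → Fin R) (y : Fin b → Fin R → Bool)
    (G : Fin b → ℕ → ℂ) {l n : ℕ} (h : l ≤ n) (u : Fin b) (s : Fin l) :
    pt r cl y G n u (Fin.castLE h s) = pt r cl y G l u s := rfl

lemma eval_mn {b R : ℕ} (r : ℕ) (cl : Fin b → Fin R) (y : Fin b → Fin R → Bool)
    (G : Fin b → ℕ → ℂ) {l n : ℕ} (h : l ≤ n) (e : Fin l → Fin b) (t : ℂ) :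
    (Polynomial.evalRingHom t) (mn r cl y G l e) =
      dt h e (fun u i => Polynomial.eval t (pt r cl y G n u i)) := by
  rw [mn, RingHom.map_det, dt]
  congr 1

/-- **[TS-MAT]** -/
theorem matTStep : MatTStep := by
  classical
  intro h1 h2 h3 n k b N len lam η hb hD hlen hη hcol hsum
  obtain ⟨r, g, cl, y, hr, hlr, hst⟩ := hD
  obtain ⟨d, hd, hds⟩ := exists_balanced b (∑ i, η i) hb
  -- sizes
  have hlenC : ∀ c, (univ.filter fun i : Fin n => (i : ℕ) < len c).card = len c := by
    intro c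
    rw [Fin.card_filter_val_lt, min_eq_right (hlen c)]
  have hsum2 : ∑ c, len c + ∑ i, η i = k * b := by
    rw [← hsum]
    have h1 : ∑ i, lam i = ∑ i : Fin n, ((univ.filter fun c => (i : ℕ) < len c).card + η i) :=
      sum_congr rfl fun i _ => (hcol i).symm
    rw [h1, sum_add_distrib]
    congr 1
    calc ∑ c, len c = ∑ c, (univ.filter fun i : Fin n => (i : ℕ) < len c).card :=
          sum_congr rfl fun c _ => (hlenC c).symm
      _ = ∑ i : Fin n, (univ.filter fun c => (i : ℕ) < len c).card := by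
          simp only [card_filter]
          exact sum_comm
  have hda : ∀ p, d p ≤ k := by
    intro p
    by_contra h
    push Not at h
    have h1 : ∀ q, k ≤ d q := fun q => by have := hd p q; omega
    have h2 : ∑ q : Fin b, k < ∑ q, d q :=
      sum_lt_sum (fun q _ => h1 q) ⟨p, mem_univ p, h⟩
    rw [sum_const, card_univ, Fintype.card_fin, smul_eq_mul, hds, mul_comm] at h2
    omega
  -- the degree functions
  have hgd1 : ∀ τ : Equiv.Perm (Fin b), ∀ p q, k - d (τ.symm p) ≤ k - d (τ.symm q) + 1 := by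
    intro τ p q
    have h1 := hd (τ.symm q) (τ.symm p)
    have h2 := hda (τ.symm p)
    have h3 := hda (τ.symm q)
    omega
  have hgd2 : ∀ τ : Equiv.Perm (Fin b), ∑ p, (k - d (τ.symm p)) = ∑ c, len c := by
    intro τ
    have h1 : ∑ p, (k - d (τ.symm p)) = ∑ p, (k - d p) :=
      Equiv.sum_comp τ.symm fun p => k - d p
    have h2 : ∑ p, (k - d p) + ∑ p, d p = k * b := by
      rw [← sum_add_distrib]
      have h3 : ∀ p : Fin b, k - d p + d p = k := fun p => Nat.sub_add_cancel (hda p)
      rw [sum_congr rfl fun p _ => h3 p, sum_const, card_univ, Fintype.card_fin, smul_eq_mul,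
        mul_comm]
    rw [h1]
    omega
  choose A hA1 hA2 hA3 hA4 using fun τ : Equiv.Perm (Fin b) =>
    hst (fun p => k - d (τ.symm p)) (hgd1 τ) (hgd2 τ)
  let u : Equiv.Perm (Fin b) → (c : Fin N) → Fin (len c) → Fin b := fun τ c =>
    (A τ c).orderEmbOfFin (hA1 τ c)
  have hu : ∀ τ c, Function.Injective (u τ c) := fun τ c =>
    ((A τ c).orderEmbOfFin (hA1 τ c)).injective
  have huA : ∀ τ c s, u τ c s ∈ A τ c := fun τ c s => orderEmbOfFin_mem _ _ s
  have him : ∀ τ c, univ.image (u τ c) = A τ c := fun τ c => by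
    refine eq_of_subset_of_card_le (fun x hx => ?_) ?_
    · obtain ⟨s, _, rfl⟩ := mem_image.1 hx
      exact huA τ c s
    · rw [card_image_of_injective _ (hu τ c), card_univ, Fintype.card_fin, hA1]
  -- the generic rows
  obtain ⟨G, hG⟩ := h3 b r g cl y (Equiv.Perm (Fin b) × Fin N) (fun x => len x.2)
    (fun x => u x.1 x.2) hr (fun x => hlr x.2) (fun x => hu x.1 x.2)
    (fun x => by rw [him]; exact hA3 x.1 x.2)
  -- the matrix
  let K : Equiv.Perm (Fin b) → (c : Fin N) → Fin (len c) → Fin b := fun τ c s => τ.symm (u τ c s)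
  let P : Matrix (Equiv.Perm (Fin b)) (Equiv.Perm (Fin b)) (Polynomial ℂ) :=
    Matrix.of fun τ σ => ∏ c, mn r cl y G (len c) (fun s => σ (K τ c s))
  have hKK : ∀ (τ : Equiv.Perm (Fin b)) (c : Fin N), (fun s => τ (K τ c s)) = u τ c := fun τ c => by
    funext s
    exact Equiv.apply_symm_apply τ (u τ c s)
  have hKinj : ∀ (τ σ : Equiv.Perm (Fin b)) (c : Fin N),
      Function.Injective (fun s => σ (K τ c s)) := fun τ σ c s s' h =>
    hu τ c (τ.symm.injective (σ.injective h))
  have hKim : ∀ (τ σ : Equiv.Perm (Fin b)) (c : Fin N), univ.image (fun s => σ (K τ c s)) =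
      (A τ c).image (σ * τ⁻¹ : Equiv.Perm (Fin b)) := fun τ σ c => by
    rw [← him τ c, image_image]
    rfl
  have hdvd : ∀ (τ σ : Equiv.Perm (Fin b)) (c : Fin N), Polynomial.X ^ (miss cl ((A τ c).image (σ * τ⁻¹ : Equiv.Perm (Fin b)))).card
      ∣ mn r cl y G (len c) (fun s => σ (K τ c s)) := fun τ σ c => by
    rw [← hKim]
    exact h1 b (g * r) r (len c) cl y G _ (hlr c) (hKinj τ σ c)
  have hdet : P.det ≠ 0 := by
    refine det_ne P (fun τ => ∑ c, (miss cl (A τ c)).card) (fun τ => ?_) (fun τ => ?_)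
      (fun τ σ hne => ?_)
    · change _ ∣ ∏ c, mn r cl y G (len c) (fun s => τ (K τ c s))
      rw [← prod_pow_eq_pow_sum]
      refine prod_dvd_prod_of_dvd _ _ fun c _ => ?_
      rw [hKK τ c, ← him τ c]
      exact h1 b (g * r) r (len c) cl y G _ (hlr c) (hu τ c)
    · change (∏ c, mn r cl y G (len c) (fun s => τ (K τ c s))).coeff _ ≠ 0
      rw [coeff_prod]
      · refine prod_ne_zero_iff.2 fun c _ => ?_
        rw [hKK τ c]
        have h4 := hG (τ, c)
        rwa [him τ c] at h4
      · intro c _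
        rw [hKK τ c, ← him τ c]
        exact h1 b (g * r) r (len c) cl y G _ (hlr c) (hu τ c)
    · change _ ∣ ∏ c, mn r cl y G (len c) (fun s => σ (K τ c s))
      have hρ : (σ * τ⁻¹ : Equiv.Perm (Fin b)) ≠ 1 := fun h => hne (mul_inv_eq_one.1 h)
      rcases hA4 τ _ hρ with h4 | ⟨h4, c0, hc0⟩
      · refine dvd_trans (pow_dvd_pow _ h4) ?_
        rw [← prod_pow_eq_pow_sum]
        exact prod_dvd_prod_of_dvd _ _ fun c _ => hdvd τ σ c
      · refine dvd_trans (pow_dvd_pow _ (Nat.succ_le_succ h4)) ?_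
        rw [← mul_prod_erase univ (fun c => mn r cl y G (len c) (fun s => σ (K τ c s)))
          (mem_univ c0)]
        have h5 : Polynomial.X ^ ((miss cl ((A τ c0).image (σ * τ⁻¹ :
            Equiv.Perm (Fin b)))).card + 1) ∣ mn r cl y G (len c0) (fun s => σ (K τ c0 s)) := by
          rw [← hKim] at hc0 ⊢
          exact h2 b r g (len c0) cl y G _ hr (hlr c0) (hKinj τ σ c0) hc0
        have h6 : Polynomial.X ^ (∑ c ∈ univ.erase c0, (miss cl ((A τ c).image (σ * τ⁻¹ :
            Equiv.Perm (Fin b)))).card) ∣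
              ∏ c ∈ univ.erase c0, mn r cl y G (len c) (fun s => σ (K τ c s)) := by
          rw [← prod_pow_eq_pow_sum]
          exact prod_dvd_prod_of_dvd _ _ fun c _ => hdvd τ σ c
        have h7 := mul_dvd_mul h5 h6
        rw [← pow_add] at h7
        refine dvd_trans (pow_dvd_pow _ ?_) h7
        rw [← add_sum_erase univ (fun c => (miss cl ((A τ c).image (σ * τ⁻¹ :
          Equiv.Perm (Fin b)))).card) (mem_univ c0)]
        omega
  obtain ⟨t, ht⟩ := exists_eval_ne hdet
  refine orbit_gtD hη len hlen hcol d hd hds K ?_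
    (fun u i => Polynomial.eval t (pt r cl y G n u i)) ?_
  · intro τ j
    have h1 : ∀ c, (univ.filter fun i => τ.symm (u τ c i) = j).card =
        if τ j ∈ A τ c then 1 else 0 := by
      intro c
      have hset : (univ.filter fun i => τ.symm (u τ c i) = j) =
          univ.filter fun i => u τ c i = τ j := by
        ext i
        simp only [mem_filter, mem_univ, true_and]
        rw [Equiv.symm_apply_eq]
      rw [hset]
      split_ifs with h
      · rw [← him τ c] at h
        obtain ⟨i0, -, hi0⟩ := mem_image.1 h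
        rw [card_eq_one]
        refine ⟨i0, ?_⟩
        ext i
        simp only [mem_filter, mem_univ, true_and, mem_singleton]
        constructor
        · intro hi
          exact hu τ c (hi.trans hi0.symm)
        · intro hi
          rw [hi]
          exact hi0
      · rw [card_eq_zero, filter_eq_empty_iff]
        intro i _ hi
        exact h (hi ▸ huA τ c i)
    rw [sum_congr rfl fun c _ => h1 c, ← card_filter]
    have h2 := hA2 τ (τ j)
    rw [dgr, Equiv.symm_apply_apply] at h2
    rw [h2]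
    exact Nat.sub_add_cancel (hda j)
  · have h4 : (Matrix.of fun τ σ : Equiv.Perm (Fin b) =>
        ∏ c, dt (hlen c) (fun s => σ (K τ c s))
          (fun u i => Polynomial.eval t (pt r cl y G n u i))) =
        (Polynomial.evalRingHom t).mapMatrix P := by
      ext τ σ
      rw [Matrix.of_apply, RingHom.mapMatrix_apply, Matrix.map_apply]
      change _ = (Polynomial.evalRingHom t) (∏ c, mn r cl y G (len c) (fun s => σ (K τ c s)))
      rw [map_prod]
      exact prod_congr rfl fun c _ => (eval_mn r cl y G (hlen c) _ t).symm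
    rw [h4, ← RingHom.map_det]
    exact ht

end Vale.Agent.P181.TS.H352
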